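import Mathlib
import Vale.Agent.P038.Defs

/-!
The canonical filtration of the arcs and of the pairs at distance two of an oriented graph.
-/

namespace Vale.Agent.P038.H511

/-- walks with `m` steps -/
def W {V : Type*} (R : V → V → Prop) : ℕ → V → V → Prop
  | 0, x, y => x = y
  | m + 1, x, y => ∃ z, R x z ∧ W R m z y

theorem W_add {V : Type*} {R : V → V → Prop} : ∀ {m n : ℕ} {x y z : V}, W R m x y → W R n y z →
    W R (m + n) x z
  | 0, n, x, y, z, h1, h2 => by
    have : x = y := h1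
    subst this
    simpa using h2
  | m + 1, n, x, y, z, ⟨t, h0, h1⟩, h2 => by
    rw [Nat.add_right_comm]
    exact ⟨t, h0, W_add h1 h2⟩

theorem W_one {V : Type*} {R : V → V → Prop} {x y : V} (h : R x y) : W R 1 x y := ⟨y, h, rfl⟩

theorem W_snoc {V : Type*} {R : V → V → Prop} {m : ℕ} {x y z : V} (h1 : W R m x y) (h2 : R y z) :
    W R (m + 1) x z := W_add h1 (W_one h2)

theorem W_last {V : Type*} {R : V → V → Prop} : ∀ {m : ℕ} {x y : V}, W R (m + 1) x y →
    ∃ z, W R m x z ∧ R z y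
  | 0, x, y, ⟨t, h0, h1⟩ => by
    have : t = y := h1
    subst this
    exact ⟨x, rfl, h0⟩
  | m + 1, x, y, ⟨t, h0, h1⟩ => by
    obtain ⟨z, h2, h3⟩ := W_last h1
    exact ⟨z, ⟨t, h0, h2⟩, h3⟩

theorem W_mono {V : Type*} {R S : V → V → Prop} (h : ∀ x y, R x y → S x y) :
    ∀ {m : ℕ} {x y : V}, W R m x y → W S m x y
  | 0, _, _, h1 => h1
  | _ + 1, _, _, ⟨t, h0, h1⟩ => ⟨t, h _ _ h0, W_mono h h1⟩

variable {V : Type*} (D : OGraph V)

/-- `z` is at distance exactly two from `u`. -/
def A2 (u z : V) : Prop := z ≠ u ∧ ¬ D.arc u z ∧ ∃ v, D.arc u v ∧ D.arc v z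

/-- The arcs `(x, y)` which lie, as the arc number `a`, on a walk `d → ⋯ → u` of `a + b + 1` arcs of
`A` such that `(u, d)` is a pair of `P`. -/
def Tk (A P : V → V → Prop) (n : ℕ) (x y : V) : Prop :=
  ∃ a b u d, a + b = n ∧ P u d ∧ W A a d x ∧ W A b y u

/-- The filtration: the first component is a set of arcs, the second one a set of pairs. -/
def AP : ℕ → (V → V → Prop) × (V → V → Prop)
  | 0 => (D.arc, A2 D)
  | n + 1 => (fun x y => (AP n).1 x y ∧ ¬ Tk (AP n).1 (AP n).2 n x y,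
      fun u d => (AP n).2 u d ∧ ¬ W (AP n).1 (n + 1) d u)

/-- the arcs which are left at the level `n` -/
def A (n : ℕ) : V → V → Prop := (AP D n).1

/-- the pairs which are left at the level `n` -/
def P (n : ℕ) : V → V → Prop := (AP D n).2

theorem A_zero : A D 0 = D.arc := rfl

theorem P_zero : P D 0 = A2 D := rfl

theorem A_succ (n : ℕ) (x y : V) : A D (n + 1) x y ↔ A D n x y ∧ ¬ Tk (A D n) (P D n) n x y :=
  Iff.rfl

theorem P_succ (n : ℕ) (u d : V) : P D (n + 1) u d ↔ P D n u d ∧ ¬ W (A D n) (n + 1) d u :=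
  Iff.rfl

theorem A_anti {m n : ℕ} (h : m ≤ n) {x y : V} : A D n x y → A D m x y := by
  induction n, h using Nat.le_induction with
  | base => exact id
  | succ n _ ih => exact fun h => ih h.1

theorem A_arc {n : ℕ} {x y : V} (h : A D n x y) : D.arc x y := A_anti D (Nat.zero_le n) h

/-- a pair of distance two is in `P n` or has an earlier level -/
theorem P_or {u z : V} (h : A2 D u z) (n : ℕ) :
    P D n u z ∨ ∃ m, m < n ∧ P D m u z ∧ W (A D m) (m + 1) z u := by
  induction n with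
  | zero => exact Or.inl h
  | succ n ih =>
    rcases ih with ih | ⟨m, hm, h2⟩
    · by_cases hw : W (A D n) (n + 1) z u
      · exact Or.inr ⟨n, Nat.lt_succ_self n, ih, hw⟩
      · exact Or.inl ⟨ih, hw⟩
    · exact Or.inr ⟨m, by omega, h2⟩

/-- an arc is in `A n` or has an earlier level -/
theorem A_or {u z : V} (h : D.arc u z) (n : ℕ) :
    A D n u z ∨ ∃ m, m < n ∧ A D m u z ∧ ¬ A D (m + 1) u z := by
  induction n with
  | zero => exact Or.inl h
  | succ n ih =>
    rcases ih with ih | ⟨m, hm, h2⟩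
    · by_cases hw : A D (n + 1) u z
      · exact Or.inl hw
      · exact Or.inr ⟨n, Nat.lt_succ_self n, ih, hw⟩
    · exact Or.inr ⟨m, by omega, h2⟩

/-- The three statements of the level lemma. -/
structure Lem (n : ℕ) : Prop where
  alpha : ∀ u x y, P D n u x → W (A D n) (n + 1) x u → D.arc u y → D.arc y x → ¬ A D (n + 1) u y
  beta : ∀ u x y, P D n u x → W (A D n) (n + 1) x u → D.arc u y → D.arc y x → ¬ A D (n + 1) y x

/-- no closed walk with all arcs but the last one in `A n` -/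
def Lw (n : ℕ) : Prop := ∀ x y, W (A D n) (n + 1) x y → ¬ D.arc y x

theorem lem_step (n : ℕ) (hL : Lw D n) (h : ∀ m, m < n → Lem D m) : Lem D n := by
  constructor
  · rintro u x y hP ⟨e, hxe, heu⟩ huy hyx hA
    have hxe' : D.arc x e := A_arc D hxe
    have hye : y ≠ e := by
      rintro rfl
      exact D.asymm _ _ hyx hxe'
    have h1 : ¬ D.arc y e := hL e y (W_snoc heu (A_anti D (Nat.le_succ n) hA))
    have h2 : A2 D y e := ⟨fun h => hye h.symm, h1, x, hyx, hxe'⟩
    rcases P_or D h2 n with h3 | ⟨m, hm, h3, h4⟩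
    · exact hA.2 ⟨n, 0, y, e, rfl, h3, heu, rfl⟩
    · exact (h m hm).beta y e x h3 h4 hyx hxe' (A_anti D (by omega) hxe)
  · rintro u x y hP hW huy hyx hA
    obtain ⟨e, hxe, heu⟩ := W_last hW
    have heu' : D.arc e u := A_arc D heu
    have hey : e ≠ y := by
      rintro rfl
      exact D.asymm _ _ huy heu'
    have h1 : ¬ D.arc e y := hL y e ⟨x, A_anti D (Nat.le_succ n) hA, hxe⟩
    have h2 : A2 D e y := ⟨fun h => hey h.symm, h1, u, heu', huy⟩
    rcases P_or D h2 n with h3 | ⟨m, hm, h3, h4⟩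
    · exact hA.2 ⟨0, n, e, y, by omega, h3, rfl, hxe⟩
    · exact (h m hm).alpha e y u h3 h4 heu' huy (A_anti D (by omega) heu)

theorem lw_step (n : ℕ) (hL : Lw D n) (h : ∀ m, m < n → Lem D m) : Lw D (n + 1) := by
  intro x y hW hyx
  obtain ⟨u, hxu, huy⟩ := W_last hW
  have huy' : D.arc u y := A_arc D huy
  have hxu' : W (A D n) (n + 1) x u := W_mono (fun _ _ h => A_anti D (Nat.le_succ n) h) hxu
  have h1 : ¬ D.arc u x := hL x u hxu'
  have hne : x ≠ u := by
    rintro rfl
    exact D.asymm _ _ huy' hyx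
  have h2 : A2 D u x := ⟨hne, h1, y, huy', hyx⟩
  rcases P_or D h2 n with h3 | ⟨m, hm, h3, h4⟩
  · obtain ⟨z, hxz, hzu⟩ := hxu
    exact hxz.2 ⟨0, n, u, x, by omega, h3, rfl,
      W_mono (fun _ _ h => A_anti D (Nat.le_succ n) h) hzu⟩
  · exact (h m hm).alpha u x y h3 h4 huy' hyx (A_anti D (by omega) huy)

theorem main_lem (n : ℕ) : Lw D n ∧ ∀ m, m < n → Lem D m := by
  induction n with
  | zero =>
    refine ⟨?_, fun m hm => absurd hm (Nat.not_lt_zero m)⟩
    rintro x y ⟨z, hxz, hzy⟩ hyx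
    have : z = y := hzy
    subst this
    exact D.asymm _ _ (A_arc D hxz) hyx
  | succ n ih =>
    refine ⟨lw_step D n ih.1 ih.2, fun m hm => ?_⟩
    rcases Nat.lt_succ_iff_lt_or_eq.1 hm with h | rfl
    · exact ih.2 m h
    · exact lem_step D m ih.1 ih.2

theorem lw (n : ℕ) : Lw D n := (main_lem D n).1

theorem lem (n : ℕ) : Lem D n := (main_lem D (n + 1)).2 n (Nat.lt_succ_self n)

/-- the arcs which are never removed -/
def Ainf (x y : V) : Prop := ∀ n, A D n x y

/-- `Ainf` has no closed walk, even if one of its arcs is an arbitrary arc. -/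
theorem ainf_acyclic (m : ℕ) (x : V) : ¬ W (Ainf D) (m + 1) x x := by
  intro h
  cases m with
  | zero =>
    obtain ⟨z, h1, h2⟩ := h
    have : z = x := h2
    subst this
    exact D.loopless _ (h1 0)
  | succ m =>
    obtain ⟨y, h1, h2⟩ := W_last h
    exact lw D m x y (W_mono (fun _ _ h => h m) h1) (h2 0)

theorem exists_sink [Finite V] [Nonempty V] : ∃ u, ∀ v, ¬ Ainf D u v := by
  by_contra hcon
  push Not at hcon
  choose g hg using hcon
  obtain ⟨x⟩ := ‹Nonempty V›
  have hW : ∀ m y, W (Ainf D) m y (g^[m] y) := by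
    intro m
    induction m with
    | zero => intro y; rfl
    | succ m ih => intro y; exact ⟨g y, hg y, by rw [Function.iterate_succ_apply]; exact ih (g y)⟩
  obtain ⟨i, j, hij, heq⟩ := Finite.exists_ne_map_eq_of_infinite (fun i : ℕ => g^[i] x)
  replace heq : g^[i] x = g^[j] x := heq
  wlog hlt : i < j generalizing i j with H
  · exact H j i (Ne.symm hij) heq.symm (by omega)
  obtain ⟨m, rfl⟩ : ∃ m, j = m + 1 + i := ⟨j - i - 1, by omega⟩
  have h1 := hW (m + 1) (g^[i] x)
  rw [← Function.iterate_add_apply, ← heq] at h1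
  exact ainf_acyclic D m _ h1

end Vale.Agent.P038.H511
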