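import Mathlib
import Vale.Agent.P038.H511.Level

/-!
The weighted count over the words of the canonical filtration.
-/

namespace Vale.Agent.P038.H511

open scoped Classical in
/-- the weighted adjacency matrix of a relation -/
noncomputable def Bm {V : Type*} (R : V → V → Prop) (w : V → ℝ) : Matrix V V ℝ :=
  fun x z => if R x z then w x else 0

section matrix

variable {V : Type*} [Fintype V] [DecidableEq V] {R : V → V → Prop} {w : V → ℝ}

omit [Fintype V] [DecidableEq V] in
theorem Bm_entry_nonneg (hw : ∀ v, 0 < w v) (x y : V) : 0 ≤ Bm R w x y := by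
  unfold Bm
  split_ifs
  · exact (hw x).le
  · exact le_rfl

theorem Bm_nonneg (hw : ∀ v, 0 < w v) : ∀ (n : ℕ) (x y : V), 0 ≤ (Bm R w ^ n) x y := by
  intro n
  induction n with
  | zero =>
    intro x y
    rw [pow_zero, Matrix.one_apply]
    split_ifs <;> norm_num
  | succ n ih =>
    intro x y
    rw [pow_succ', Matrix.mul_apply]
    exact Finset.sum_nonneg fun z _ => mul_nonneg (Bm_entry_nonneg hw x z) (ih z y)

theorem Bm_pos (hw : ∀ v, 0 < w v) : ∀ (n : ℕ) (x y : V), W R n x y → 0 < (Bm R w ^ n) x y := by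
  intro n
  induction n with
  | zero =>
    intro x y h
    have : x = y := h
    subst this
    simp
  | succ n ih =>
    rintro x y ⟨z, h1, h2⟩
    rw [pow_succ', Matrix.mul_apply]
    refine Finset.sum_pos' (fun z _ => mul_nonneg (Bm_entry_nonneg hw x z) (Bm_nonneg hw n z y))
      ⟨z, Finset.mem_univ z, mul_pos ?_ (ih z y h2)⟩
    unfold Bm
    rw [if_pos h1]
    exact hw x

theorem Bm_ne : ∀ (n : ℕ) (x y : V), (Bm R w ^ n) x y ≠ 0 → W R n x y := by
  intro n
  induction n with
  | zero =>
    intro x y h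
    by_contra hne
    have hne' : x ≠ y := hne
    exact h (by simp [hne'])
  | succ n ih =>
    intro x y h
    rw [pow_succ', Matrix.mul_apply] at h
    obtain ⟨z, _, hz⟩ := Finset.exists_ne_zero_of_sum_ne_zero h
    have h1 : Bm R w x z ≠ 0 := left_ne_zero_of_mul hz
    have h2 : (Bm R w ^ n) z y ≠ 0 := right_ne_zero_of_mul hz
    refine ⟨z, ?_, ih z y h2⟩
    by_contra hne
    exact h1 (by unfold Bm; rw [if_neg hne])

end matrix

section count

variable {V : Type*} [Fintype V] (D : OGraph V)

/-- A weight `w` on the vertices and, for every vertex `u`, a fractional matching `K u` of the whole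
second neighbourhood of `u` into its first neighbourhood, along arcs. -/
structure Frac (w : V → ℝ) (K : V → V → V → ℝ) : Prop where
  pos : ∀ v, 0 < w v
  nonneg : ∀ u z v, 0 ≤ K u z v
  supp : ∀ u z v, K u z v ≠ 0 → A2 D u z ∧ D.arc u v ∧ D.arc v z
  row : ∀ u z, A2 D u z → ∑ v, K u z v = w z
  col : ∀ u v, ∑ z, K u z v ≤ w v

/-- the pairs of level `n` -/
def Z (n : ℕ) (u z : V) : Prop := P D n u z ∧ W (A D n) (n + 1) z u

/-- the first neighbour `v` of `u` is saturated by the second neighbours of the level of `(u, v)` -/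
def Sat (w : V → ℝ) (K : V → V → V → ℝ) (n : ℕ) : Prop :=
  ∀ u v, A D n u v → ¬ A D (n + 1) u v →
    w v ≤ ∑ z, open Classical in if Z D n u z then K u z v else 0

variable {D} {w : V → ℝ} {K : V → V → V → ℝ}

theorem Frac.null (hF : Frac D w K) {n : ℕ} (hS : ∀ m, m < n → Sat D w K m) {u d v : V}
    (hP : P D n u d) (hK : K u d v ≠ 0) : A D n u v := by
  classical
  rcases A_or D (hF.supp u d v hK).2.1 n with h | ⟨m, hm, h1, h2⟩
  · exact h
  · exfalso
    have hZ : ¬ Z D m u d := by
      rintro ⟨-, hW⟩
      have h3 : ∀ k, m + 1 ≤ k → P D k u d → P D (m + 1) u d := by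
        intro k hk
        induction k, hk using Nat.le_induction with
        | base => exact id
        | succ k _ ih => exact fun h => ih h.1
      exact (h3 n hm hP).2 hW
    have h4 := hS m hm u v h1 h2
    have h5 := hF.col u v
    have h6 : ∑ z, (if Z D m u z then K u z v else 0) < ∑ z, K u z v := by
      refine Finset.sum_lt_sum (fun z _ => ?_) ⟨d, Finset.mem_univ d, ?_⟩
      · split_ifs
        · exact le_rfl
        · exact hF.nonneg u z v
      · rw [if_neg hZ]
        exact lt_of_le_of_ne (hF.nonneg u d v) (Ne.symm hK)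
    linarith

/-- The set of the `v` with `P v y` and `A u v`. -/
theorem Frac.mem_S2 (hF : Frac D w K) {n : ℕ} (hS : ∀ m, m < n → Sat D w K m) {y u d v : V}
    (hW : W (A D n) n y u) (hP : P D n u d) (hA : A D n d y) (hK : K u d v ≠ 0) :
    P D n v y ∧ A D n u v := by
  have h1 : A D n u v := hF.null hS hP hK
  obtain ⟨-, -, hvd⟩ := hF.supp u d v hK
  have hyv : W (A D n) (n + 1) y v := W_snoc hW h1
  have hdy : D.arc d y := A_arc D hA
  have h2 : A2 D v y := by
    refine ⟨?_, lw D n y v hyv, d, hvd, hdy⟩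
    rintro rfl
    exact D.asymm _ _ hvd hdy
  rcases P_or D h2 n with h3 | ⟨m, hm, h3, h4⟩
  · exact ⟨h3, h1⟩
  · exact absurd (A_anti D (by omega) hA) ((lem D m).beta v y d h3 h4 hvd hdy)

open Classical in
theorem Frac.le (hF : Frac D w K) {n : ℕ} (hS : ∀ m, m < n → Sat D w K m) {y u : V}
    (hW : W (A D n) n y u) :
    (∑ d, if P D n u d ∧ A D n d y then w d else 0) =
      (∑ v, if P D n v y ∧ A D n u v then ∑ d, (if P D n u d ∧ A D n d y then K u d v else 0)
        else 0) := by
  have h1 : ∀ d, (if P D n u d ∧ A D n d y then w d else 0) =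
      ∑ v, if P D n u d ∧ A D n d y then K u d v else 0 := by
    intro d
    split_ifs with h
    · rw [hF.row u d]
      have h3 : ∀ k, P D k u d → A2 D u d := by
        intro k
        induction k with
        | zero => exact id
        | succ k ih => exact fun h => ih h.1
      exact h3 n h.1
    · simp
  rw [Finset.sum_congr rfl fun d _ => h1 d, Finset.sum_comm]
  refine Finset.sum_congr rfl fun v _ => ?_
  by_cases hv : P D n v y ∧ A D n u v
  · rw [if_pos hv]
  · rw [if_neg hv]
    refine Finset.sum_eq_zero fun d _ => ?_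
    split_ifs with h
    · by_contra hK
      exact hv (hF.mem_S2 hS hW h.1 h.2 hK)
    · rfl

theorem Frac.sub_le (hF : Frac D w K) (q : V → Prop) [DecidablePred q] (u v : V) :
    (∑ d, if q d then K u d v else 0) ≤ w v := by
  refine le_trans (Finset.sum_le_sum fun d _ => ?_) (hF.col u v)
  split_ifs
  · exact le_rfl
  · exact hF.nonneg u d v

open Classical in
/-- the total mass of the words of level `n`, computed in two ways -/
theorem total (n : ℕ) :
    (∑ y, ∑ u, ((Bm (A D n) w ^ n) y u * w u) *
        (∑ d, if P D n u d ∧ A D n d y then w d else 0)) =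
      ∑ y, ∑ u, ((Bm (A D n) w ^ n) y u * w u) *
        (∑ v, if P D n v y ∧ A D n u v then w v else 0) := by
  have hL : (∑ y, ∑ u, ((Bm (A D n) w ^ n) y u * w u) *
        (∑ d, if P D n u d ∧ A D n d y then w d else 0)) =
      ∑ u, ∑ d, if P D n u d then (Bm (A D n) w ^ (n + 1)) d u * w u else 0 := by
    rw [Finset.sum_comm]
    refine Finset.sum_congr rfl fun u _ => ?_
    simp_rw [Finset.mul_sum]
    rw [Finset.sum_comm]
    refine Finset.sum_congr rfl fun d _ => ?_
    by_cases hP : P D n u d
    · rw [if_pos hP, pow_succ', Matrix.mul_apply, Finset.sum_mul]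
      refine Finset.sum_congr rfl fun y _ => ?_
      unfold Bm
      by_cases hA : A D n d y
      · simp only [hP, hA, and_self, if_true]
        ring
      · simp only [hA, and_false, if_false]
        ring
    · rw [if_neg hP]
      refine Finset.sum_eq_zero fun y _ => ?_
      simp [hP]
  have hR : (∑ y, ∑ u, ((Bm (A D n) w ^ n) y u * w u) *
        (∑ v, if P D n v y ∧ A D n u v then w v else 0)) =
      ∑ y, ∑ v, if P D n v y then (Bm (A D n) w ^ (n + 1)) y v * w v else 0 := by
    refine Finset.sum_congr rfl fun y _ => ?_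
    simp_rw [Finset.mul_sum]
    rw [Finset.sum_comm]
    refine Finset.sum_congr rfl fun v _ => ?_
    by_cases hP : P D n v y
    · rw [if_pos hP, pow_succ, Matrix.mul_apply, Finset.sum_mul]
      refine Finset.sum_congr rfl fun u _ => ?_
      unfold Bm
      by_cases hA : A D n u v
      · simp only [hP, hA, and_self, if_true]
      · simp only [hA, and_false, if_false]
        ring
    · rw [if_neg hP]
      refine Finset.sum_eq_zero fun u _ => ?_
      simp [hP]
  rw [hL, hR, Finset.sum_comm]

open Classical in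
/-- equality in the count -/
theorem Frac.eq (hF : Frac D w K) {n : ℕ} (hS : ∀ m, m < n → Sat D w K m) {y u v : V}
    (hW : W (A D n) n y u) (hP : P D n v y) (hA : A D n u v) :
    ∑ d, (if P D n u d ∧ A D n d y then K u d v else 0) = w v := by
  have hle : ∀ y u, ((Bm (A D n) w ^ n) y u * w u) *
        (∑ d, if P D n u d ∧ A D n d y then w d else 0) ≤
      ((Bm (A D n) w ^ n) y u * w u) *
        (∑ v, if P D n v y ∧ A D n u v then w v else 0) := by
    intro y u
    by_cases hW : W (A D n) n y u
    · refine mul_le_mul_of_nonneg_left ?_ (mul_nonneg (Bm_nonneg hF.pos n y u) (hF.pos u).le)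
      rw [hF.le hS hW]
      refine Finset.sum_le_sum fun v _ => ?_
      split_ifs
      · exact hF.sub_le (fun d => P D n u d ∧ A D n d y) u v
      · exact le_rfl
    · have h0 : (Bm (A D n) w ^ n) y u = 0 := by
        by_contra h
        exact hW (Bm_ne n y u h)
      rw [h0]
      simp
  have h1 := total (D := D) (w := w) n
  have h2 : ∀ y ∈ Finset.univ, (∑ u, ((Bm (A D n) w ^ n) y u * w u) *
        (∑ d, if P D n u d ∧ A D n d y then w d else 0)) =
      ∑ u, ((Bm (A D n) w ^ n) y u * w u) *
        (∑ v, if P D n v y ∧ A D n u v then w v else 0) :=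
    (Finset.sum_eq_sum_iff_of_le fun y _ => Finset.sum_le_sum fun u _ => hle y u).1 h1
  have h3 : ∀ u ∈ Finset.univ, ((Bm (A D n) w ^ n) y u * w u) *
        (∑ d, if P D n u d ∧ A D n d y then w d else 0) =
      ((Bm (A D n) w ^ n) y u * w u) *
        (∑ v, if P D n v y ∧ A D n u v then w v else 0) :=
    (Finset.sum_eq_sum_iff_of_le fun u _ => hle y u).1 (h2 y (Finset.mem_univ y))
  have h4 := h3 u (Finset.mem_univ u)
  have hpos : 0 < (Bm (A D n) w ^ n) y u * w u := mul_pos (Bm_pos hF.pos n y u hW) (hF.pos u)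
  have h5 := mul_left_cancel₀ hpos.ne' h4
  rw [hF.le hS hW] at h5
  have h6 : ∀ v ∈ Finset.univ, (if P D n v y ∧ A D n u v then
        ∑ d, (if P D n u d ∧ A D n d y then K u d v else 0) else 0) =
      (if P D n v y ∧ A D n u v then w v else 0) := by
    refine (Finset.sum_eq_sum_iff_of_le fun v _ => ?_).1 h5
    split_ifs
    · exact hF.sub_le (fun d => P D n u d ∧ A D n d y) u v
    · exact le_rfl
  have h7 := h6 v (Finset.mem_univ v)
  rw [if_pos ⟨hP, hA⟩, if_pos ⟨hP, hA⟩] at h7
  exact h7

/-- Every word of level `n` has a predecessor. -/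
theorem Frac.pred (hF : Frac D w K) {n : ℕ} (hS : ∀ m, m < n → Sat D w K m) {y u v : V}
    (hW : W (A D n) n y u) (hP : P D n v y) (hA : A D n u v) :
    ∃ d, P D n u d ∧ A D n d y := by
  classical
  have h := hF.eq hS hW hP hA
  have hne : ∑ d, (if P D n u d ∧ A D n d y then K u d v else 0) ≠ 0 := by
    rw [h]
    exact (hF.pos v).ne'
  obtain ⟨d, _, hd⟩ := Finset.exists_ne_zero_of_sum_ne_zero hne
  by_contra hcon
  push Not at hcon
  exact hd (by rw [if_neg fun h => hcon d h.1 h.2])

theorem Frac.rotate (hF : Frac D w K) {n : ℕ} (hS : ∀ m, m < n → Sat D w K m) {x y : V}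
    (hA : A D n x y) : ∀ (b a : ℕ) (d u : V), a + b = n → P D n u d → W (A D n) a d x →
      W (A D n) b y u → ∃ d', P D n y d' ∧ W (A D n) n d' x := by
  intro b
  induction b with
  | zero =>
    intro a d u hab hP h1 h2
    have : y = u := h2
    subst this
    have : a = n := by omega
    subst this
    exact ⟨d, hP, h1⟩
  | succ b ih =>
    intro a d u hab hP h1 h2
    obtain ⟨u', h3, h4⟩ := W_last h2
    have h5 : W (A D n) n d u' := by
      have := W_add (W_snoc h1 hA) h3
      have h6 : a + 1 + b = n := by omega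
      rwa [h6] at this
    obtain ⟨d', h7, h8⟩ := hF.pred hS h5 hP h4
    exact ih (a + 1) d' u' (by omega) h7 ⟨d, h8, h1⟩ h3

theorem Frac.sat (hF : Frac D w K) (n : ℕ) : Sat D w K n := by
  induction n using Nat.strong_induction_on with
  | _ n hS =>
    intro u v hA hA'
    have hT : Tk (A D n) (P D n) n u v := by
      by_contra h
      exact hA' ⟨hA, h⟩
    obtain ⟨a, b, u', d, hab, hP, h1, h2⟩ := hT
    obtain ⟨y, h3, h4⟩ := hF.rotate hS hA b a d u' hab hP h1 h2
    rw [← hF.eq hS h4 h3 hA]
    refine Finset.sum_le_sum fun z _ => ?_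
    by_cases hz : P D n u z ∧ A D n z y
    · rw [if_pos hz, if_pos ⟨hz.1, y, hz.2, h4⟩]
    · rw [if_neg hz]
      split_ifs
      · exact hF.nonneg u z v
      · exact le_rfl

/-- At a sink of the never removed arcs the two neighbourhoods have the same weight. -/
theorem Frac.sink (hF : Frac D w K) {u : V} (hu : ∀ v, ¬ Ainf D u v) :
    ∑ v ∈ N1 D u, w v = ∑ z ∈ N2 D u, w z := by
  classical
  have h1 : ∀ v ∈ N1 D u, w v = ∑ z, K u z v := by
    intro v hv
    have hv' : D.arc u v := mem_N1.1 hv
    obtain ⟨n, hn⟩ : ∃ n, ¬ A D n u v := by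
      by_contra h
      push Not at h
      exact hu v h
    rcases A_or D hv' n with h | ⟨m, hm, h2, h3⟩
    · exact absurd h hn
    · refine le_antisymm (le_trans (hF.sat m u v h2 h3) (Finset.sum_le_sum fun z _ => ?_))
        (hF.col u v)
      split_ifs
      · exact le_rfl
      · exact hF.nonneg u z v
  have h2 : ∀ z, A2 D u z ↔ z ∈ N2 D u := fun z => mem_N2.symm
  rw [Finset.sum_congr rfl h1]
  have h3 : ∑ v ∈ N1 D u, ∑ z, K u z v = ∑ v, ∑ z, K u z v := by
    refine Finset.sum_subset (Finset.subset_univ _) fun v _ hv => ?_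
    refine Finset.sum_eq_zero fun z _ => ?_
    by_contra h
    exact hv (mem_N1.2 (hF.supp u z v h).2.1)
  rw [h3, Finset.sum_comm]
  have h4 : ∑ z ∈ N2 D u, w z = ∑ z ∈ N2 D u, ∑ v, K u z v :=
    Finset.sum_congr rfl fun z hz => (hF.row u z ((h2 z).2 hz)).symm
  rw [h4]
  symm
  refine Finset.sum_subset (Finset.subset_univ _) fun z _ hz => ?_
  refine Finset.sum_eq_zero fun v _ => ?_
  by_contra h
  exact hz ((h2 z).1 (hF.supp u z v h).1)

end count

end Vale.Agent.P038.H511
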