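import Mathlib
import Vale.Agent.P038.H511.Count

/-!
# Oriented graphs in which second neighbourhoods can be matched into first neighbourhoods
-/

namespace Vale.Agent.P038.H511

variable {V : Type*} [Fintype V] (D : OGraph V)

/-- For the weight `w` the whole second neighbourhood `N₂⁺(u)` has a fractional matching into the
first neighbourhood `N₁⁺(u)`, along arcs from `N₁⁺(u)` to `N₂⁺(u)`: `k z v ≥ 0` is the part of the
weight of `z ∈ N₂⁺(u)` which is sent to `v ∈ N₁⁺(u)`, only for `v → z`; the full weight `w z` of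
every `z ∈ N₂⁺(u)` is sent, and every `v` receives at most `w v`. -/
def FracMatching (w : V → ℝ) (u : V) : Prop :=
  ∃ k : V → V → ℝ, (∀ z v, 0 ≤ k z v) ∧
    (∀ z v, k z v ≠ 0 → z ∈ N2 D u ∧ v ∈ N1 D u ∧ D.arc v z) ∧
    (∀ z ∈ N2 D u, ∑ v, k z v = w z) ∧
    ∀ v, ∑ z, k z v ≤ w v

/-- Hall's condition: every set `Z` of second neighbours of `u` is reached from at least `|Z|` first
neighbours of `u`. -/
def HallCondition (u : V) : Prop :=
  ∀ Z : Finset V, Z ⊆ N2 D u →
    Z.card ≤ (open Classical in ((N1 D u).filter fun v => ∃ z ∈ Z, D.arc v z)).card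

variable {D}

theorem frac_of_hall {u : V} (h : HallCondition D u) : FracMatching D (fun _ => 1) u := by
  classical
  -- Hall's theorem
  let t : {z // z ∈ N2 D u} → Finset V := fun z => (N1 D u).filter fun v => D.arc v z.1
  have h1 : ∀ S : Finset {z // z ∈ N2 D u}, S.card ≤ (S.biUnion t).card := by
    intro S
    have h2 := h (S.map (Function.Embedding.subtype _)) (by
      intro z hz
      rw [Finset.mem_map] at hz
      obtain ⟨z', _, rfl⟩ := hz
      exact z'.2)
    rw [Finset.card_map] at h2
    refine h2.trans (Finset.card_le_card ?_)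
    intro v hv
    rw [Finset.mem_filter] at hv
    obtain ⟨hv1, z, hz, hvz⟩ := hv
    rw [Finset.mem_map] at hz
    obtain ⟨z', hz', rfl⟩ := hz
    rw [Finset.mem_biUnion]
    exact ⟨z', hz', Finset.mem_filter.2 ⟨hv1, hvz⟩⟩
  obtain ⟨f, hf1, hf2⟩ := (Finset.all_card_le_biUnion_card_iff_exists_injective t).1 h1
  refine ⟨fun z v => if h : z ∈ N2 D u then (if f ⟨z, h⟩ = v then 1 else 0) else 0, ?_, ?_, ?_, ?_⟩
  · intro z v
    dsimp only
    split_ifs <;> norm_num
  · intro z v hk
    dsimp only at hk
    split_ifs at hk with h3 h4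
    · have h5 := hf2 ⟨z, h3⟩
      rw [h4] at h5
      have h6 := Finset.mem_filter.1 h5
      exact ⟨h3, h6.1, h6.2⟩
    · exact absurd rfl hk
    · exact absurd rfl hk
  · intro z hz
    simp [hz]
  · intro v
    show (∑ z, (if h : z ∈ N2 D u then (if f ⟨z, h⟩ = v then (1 : ℝ) else 0) else 0)) ≤ 1
    by_cases hv : ∃ z, f z = v
    · obtain ⟨z0, hz0⟩ := hv
      rw [Finset.sum_eq_single z0.1]
      · rw [dif_pos z0.2, if_pos hz0]
      · intro z _ hz
        split_ifs with h3 h4
        · exact absurd (congrArg Subtype.val (hf1 (h4.trans hz0.symm))) hz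
        · rfl
        · rfl
      · intro h3
        exact absurd (Finset.mem_univ _) h3
    · rw [Finset.sum_eq_zero]
      · norm_num
      · intro z _
        split_ifs with h3 h4
        · exact absurd ⟨_, h4⟩ hv
        · rfl
        · rfl

theorem weighted_of_sink {u : V} (hu : ∀ v, ¬ Ainf D u v) {w : V → ℝ} (hw : ∀ v, 0 < w v)
    (h : ∀ x, FracMatching D w x) : ∑ v ∈ N1 D u, w v = ∑ z ∈ N2 D u, w z := by
  choose K h1 h2 h3 h4 using h
  have hF : Frac D w K :=
    { pos := hw
      nonneg := h1
      supp := fun x z v hk => by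
        obtain ⟨h5, h6, h7⟩ := h2 x z v hk
        exact ⟨mem_N2.1 h5, mem_N1.1 h6, h7⟩
      row := fun x z hz => h3 x z (mem_N2.2 hz)
      col := h4 }
  exact hF.sink hu

theorem card_of_sink {u : V} (hu : ∀ v, ¬ Ainf D u v) (h : ∀ x, HallCondition D x) :
    (N1 D u).card = (N2 D u).card := by
  have h1 := weighted_of_sink hu (w := fun _ => 1) (fun _ => one_pos) fun x => frac_of_hall (h x)
  simpa using h1

end Vale.Agent.P038.H511
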